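import Vale.Agent.P213.Cplx.Tools
import Mathlib.Algebra.BigOperators.Fin
import Mathlib.AlgebraicTopology.SimplexCategory.Basic

/-!
# The normalized chain complex of a partial order; orientals
-/

open CategoryTheory

namespace Vale.Agent.P213.ADC

noncomputable section

variable {P Q R : Type} [PartialOrder P] [PartialOrder Q] [PartialOrder R]

/-- A strict chain `c 0 < ... < c k`. -/
abbrev Chain (P : Type) [PartialOrder P] (k : ℕ) := {c : Fin (k + 1) → P // StrictMono c}

open Classical in
/-- The normalized chain of a sequence: `0` unless it is strictly increasing. -/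
def el {k : ℕ} (c : Fin (k + 1) → P) : Chain P k →₀ ℤ :=
  if h : StrictMono c then Finsupp.single ⟨c, h⟩ 1 else 0

lemma el_of_strictMono {k : ℕ} {c : Fin (k + 1) → P} (h : StrictMono c) :
    el c = Finsupp.single ⟨c, h⟩ 1 := dif_pos h

lemma el_of_not {k : ℕ} {c : Fin (k + 1) → P} (h : ¬ StrictMono c) : el c = 0 := dif_neg h

lemma el_val {k : ℕ} (c : Chain P k) : el c.1 = Finsupp.single c 1 := el_of_strictMono c.2

lemma el_nonneg {k : ℕ} (c : Fin (k + 1) → P) : 0 ≤ el c := by
  by_cases h : StrictMono c
  · simp [el_of_strictMono h]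
  · simp [el_of_not h]

lemma not_strictMono_comp {k : ℕ} {c : Fin (k + 1) → P} (hc : Monotone c) (h : ¬ StrictMono c)
    (f : P → Q) : ¬ StrictMono (f ∘ c) := by
  intro hf
  refine h fun i j hij => lt_of_le_of_ne (hc hij.le) fun e => ?_
  exact (hf hij).ne (congrArg f e)

/-- The face maps of sequences. -/
abbrev face {k : ℕ} (c : Fin (k + 2) → P) (i : Fin (k + 2)) : Fin (k + 1) → P := c ∘ i.succAbove

/-- The alternating sum of the normalized faces. -/
def bdryEl {k : ℕ} (c : Fin (k + 2) → P) : Chain P k →₀ ℤ :=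
  ∑ i : Fin (k + 2), (-1 : ℤ) ^ (i : ℕ) • el (face c i)

lemma bdryEl_degenerate {k : ℕ} {c : Fin (k + 2) → P} (hc : Monotone c) (h : ¬ StrictMono c) :
    bdryEl c = 0 := by
  rw [Fin.strictMono_iff_lt_succ] at h
  push Not at h
  obtain ⟨j, hj⟩ := h
  have heq : c j.castSucc = c j.succ := by
    by_contra hne
    exact hj (lt_of_le_of_ne (hc j.castSucc_le_succ) hne)
  have hne : j.castSucc ≠ j.succ := (Fin.castSucc_lt_succ).ne
  rw [bdryEl, Finset.sum_eq_add_of_mem j.castSucc j.succ (Finset.mem_univ _) (Finset.mem_univ _)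
    hne]
  · have : face c j.castSucc = face c j.succ := by
      funext p
      simp only [face, Function.comp_apply]
      rcases lt_trichotomy p j with hp | rfl | hp
      · rw [Fin.succAbove_of_castSucc_lt _ _ (Fin.castSucc_lt_castSucc_iff.mpr hp),
          Fin.succAbove_of_castSucc_lt _ _ (Fin.castSucc_lt_succ_iff.mpr hp.le)]
      · rw [Fin.succAbove_of_le_castSucc _ _ le_rfl,
          Fin.succAbove_of_castSucc_lt _ _ Fin.castSucc_lt_succ, heq]
      · rw [Fin.succAbove_of_le_castSucc _ _ (Fin.castSucc_le_castSucc_iff.mpr hp.le),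
          Fin.succAbove_of_le_castSucc _ _ (Fin.succ_le_castSucc_iff.mpr hp)]
    rw [this]
    simp [pow_succ]
  · intro i _ hi
    obtain ⟨p, hp⟩ := Fin.exists_succAbove_eq hi.1.symm
    obtain ⟨q, hq⟩ := Fin.exists_succAbove_eq hi.2.symm
    have : ¬ StrictMono (face c i) := fun hs => by
      have hpq : face c i p = face c i q := by simp [face, hp, hq, heq]
      have := hs.injective hpq
      subst this
      exact hne (hp.symm.trans hq)
    simp [el_of_not this]

lemma bdryEl_bdryEl {k : ℕ} (c : Fin (k + 3) → P) :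
    ∑ i : Fin (k + 3), (-1 : ℤ) ^ (i : ℕ) • bdryEl (face c i) = 0 := by
  simp only [bdryEl, Finset.smul_sum, smul_smul, ← Fintype.sum_prod_type']
  refine Finset.sum_involution
    (fun p _ => (p.1.succAbove p.2, p.2.predAbove p.1)) ?_ ?_ (fun _ _ => Finset.mem_univ _) ?_
  · rintro ⟨i, j⟩ -
    have hf : face (face c (i.succAbove j)) (j.predAbove i) = face (face c i) j := by
      funext q
      simp [face, Fin.succAbove_succAbove_succAbove_predAbove]
    have hs : ((i.succAbove j : Fin (k + 3)) : ℕ) + (j.predAbove i : ℕ) + 1 = i + j ∨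
        ((i.succAbove j : Fin (k + 3)) : ℕ) + (j.predAbove i : ℕ) = i + j + 1 := by
      rcases lt_or_ge j.castSucc i with h | h
      · left
        rw [Fin.succAbove_of_castSucc_lt _ _ h, Fin.predAbove_of_castSucc_lt _ _ h]
        have := Fin.lt_def.mp h
        simp only [Fin.val_castSucc, Fin.val_pred] at this ⊢
        omega
      · right
        rw [Fin.succAbove_of_le_castSucc _ _ h, Fin.predAbove_of_le_castSucc _ _ h]
        simp only [Fin.val_succ, Fin.coe_castPred]
        omega
    rw [hf, ← add_smul, ← pow_add, ← pow_add]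
    rcases hs with hs | hs
    · rw [← hs]; simp [pow_succ]
    · rw [hs]; simp [pow_succ]
  · rintro ⟨i, j⟩ - - e
    exact Fin.succAbove_ne i j (congrArg Prod.fst e)
  · rintro ⟨i, j⟩ -
    simp [Fin.succAbove_succAbove_predAbove, Fin.predAbove_predAbove_succAbove]

lemma onGen_bdryEl {k : ℕ} {c : Fin (k + 2) → P} (hc : Monotone c) :
    onGen (fun a : Chain P (k + 1) => bdryEl a.1) (el c) = bdryEl c := by
  by_cases h : StrictMono c
  · rw [el_of_strictMono h, onGen_single]
  · rw [el_of_not h, map_zero, bdryEl_degenerate hc h]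

/-- The complex of normalized chains of a partial order. -/
abbrev chains (P : Type) [PartialOrder P] : ADC where
  B k := Chain P k
  d _ := onGen fun a => bdryEl a.1
  ε := onGen fun _ => 1
  d_d k x := by
    have e : (onGen fun a : Chain P (k + 1) => bdryEl a.1).comp
        (onGen fun a : Chain P (k + 2) => bdryEl a.1) = 0 := by
      refine lhom_ext_gen fun a => ?_
      rw [LinearMap.comp_apply, onGen_single, LinearMap.zero_apply, bdryEl, map_sum]
      rw [Finset.sum_congr rfl fun i _ => by
        rw [map_zsmul, onGen_bdryEl (a.2.monotone.comp (Fin.strictMono_succAbove i).monotone)]]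
      exact bdryEl_bdryEl a.1
    exact LinearMap.congr_fun e x
  ε_d x := by
    have e : (onGen fun _ : Chain P 0 => (1 : ℤ)).comp
        (onGen fun a : Chain P 1 => bdryEl a.1) = 0 := by
      refine lhom_ext_gen fun a => ?_
      rw [LinearMap.comp_apply, onGen_single, LinearMap.zero_apply, bdryEl, map_sum,
        Fin.sum_univ_two,
        el_of_strictMono (a.2.comp (Fin.strictMono_succAbove 0)),
        el_of_strictMono (a.2.comp (Fin.strictMono_succAbove 1))]
      simp
    exact LinearMap.congr_fun e x

lemma chains_d_el {k : ℕ} {c : Fin (k + 2) → P} (hc : Monotone c) :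
    (chains P).d k (el c) = ∑ i : Fin (k + 2), (-1 : ℤ) ^ (i : ℕ) • el (c ∘ i.succAbove) :=
  onGen_bdryEl hc

lemma chains_ε_el (c : Fin 1 → P) : (chains P).ε (el c) = 1 := by
  rw [el_of_strictMono (Subsingleton.strictMono c)]
  exact onGen_single _ _

lemma chains_gen {k : ℕ} (c : Chain P k) : (chains P).gen (k := k) c = el c.1 := (el_val c).symm

lemma onGen_el_comp (f : P → Q) {k : ℕ} {c : Fin (k + 1) → P} (hc : Monotone c) :
    onGen (fun a : Chain P k => el (f ∘ a.1)) (el c) = el (f ∘ c) := by
  by_cases h : StrictMono c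
  · rw [el_of_strictMono h, onGen_single]
  · rw [el_of_not h, map_zero, el_of_not (not_strictMono_comp hc h f)]

/-- A monotone map induces a morphism; degenerate images go to zero. -/
def chainsMap (f : P →o Q) : chains P ⟶ chains Q :=
  Hom.ofGen (fun _ a => el (f ∘ a.1)) (fun _ _ => el_nonneg _)
    (fun k a => by
      rw [chains_gen, chains_d_el a.2.monotone, map_sum]
      refine (Finset.sum_congr rfl fun i _ => ?_).trans
        (chains_d_el (P := Q) (c := f ∘ a.1) (f.monotone.comp a.2.monotone)).symm
      rw [map_zsmul]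
      exact congrArg _ (onGen_el_comp f (a.2.monotone.comp (Fin.strictMono_succAbove i).monotone)))
    (fun a => by rw [chains_gen, chains_ε_el, chains_ε_el])

lemma chainsMap_el (f : P →o Q) {k : ℕ} {c : Fin (k + 1) → P} (hc : Monotone c) :
    (chainsMap f).f k (el c) = el (f ∘ c) :=
  onGen_el_comp f hc

@[simp] lemma chainsMap_gen (f : P →o Q) {k : ℕ} (c : Chain P k) :
    (chainsMap f).f k ((chains P).gen c) = el (f ∘ c.1) :=
  onGen_single _ _

@[simp] lemma chainsMap_id : chainsMap (OrderHom.id : P →o P) = 𝟙 (chains P) :=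
  Hom.ext_gen fun k c => by rw [chainsMap_gen, id_f, chains_gen]; rfl

lemma chainsMap_comp (f : P →o Q) (g : Q →o R) :
    chainsMap (g.comp f) = chainsMap f ≫ chainsMap g :=
  Hom.ext_gen fun k c => by
    rw [comp_f, chainsMap_gen, chainsMap_gen,
      chainsMap_el g (f.monotone.comp c.2.monotone)]
    rfl

/-- The oriental `O_m`, as a complex. -/
abbrev oriental (m : ℕ) : ADC := chains (Fin (m + 1))

/-- The cosimplicial complex of orientals. -/
def orientalFunctor : SimplexCategory ⥤ ADC where
  obj Δ := oriental Δ.len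
  map φ := chainsMap φ.toOrderHom
  map_id _ := chainsMap_id
  map_comp φ ψ := chainsMap_comp φ.toOrderHom ψ.toOrderHom

end

end Vale.Agent.P213.ADC
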