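import Vale.Agent.P213.Cplx.Chains
import Mathlib.Data.Fintype.Card
import Mathlib.Algebra.Order.BigOperators.Group.Finset
import Mathlib.Tactic.Linarith

/-!
# Chains of a finite partial order form a Steiner complex; in particular orientals do
-/

open CategoryTheory

namespace Vale.Agent.P213.ADC

noncomputable section

variable {P Q : Type} [PartialOrder P] [PartialOrder Q]

lemma strictMono_fin_one (f : Fin (0 + 1) → P) : StrictMono f := fun i j h => by
  rw [Fin.eq_zero i, Fin.eq_zero j] at h
  exact absurd h (lt_irrefl _)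

/-- The rank of a chain: lexicographic, alternating with the position. -/
def chainRank (n : ℕ) : ∀ k, (Fin k → ℕ) → ℤ
  | 0, _ => 0
  | k + 1, c => -(2 ^ (n - c 0) - 1) - chainRank n k (Fin.tail c)

lemma chainRank_bounds (n : ℕ) : ∀ (k : ℕ) (c : Fin k → ℕ), StrictMono c → (∀ i, c i < n) →
    ∀ lb, lb ≤ n → (∀ i, lb ≤ c i) →
      -(2 ^ (n - lb) - 1 : ℤ) ≤ chainRank n k c ∧ chainRank n k c ≤ 0
  | 0, c, _, _, lb, _, _ => by
    simp only [chainRank, Int.neg_le_zero_iff, le_refl, and_true]
    exact sub_nonneg.mpr (one_le_pow₀ (by norm_num))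
  | k + 1, c, hc, hn, lb, _, hlb => by
    have ht : StrictMono (Fin.tail c) := fun i j h => hc (Fin.succ_lt_succ_iff.mpr h)
    have ih := chainRank_bounds n k (Fin.tail c) ht (fun i => hn _) (c 0 + 1) (hn 0)
      fun i => hc (Fin.succ_pos i)
    simp only [chainRank]
    have h0 := hn 0
    have e : (2 : ℤ) ^ (n - c 0) = 2 * 2 ^ (n - (c 0 + 1)) := by
      rw [← pow_succ']; congr 1; omega
    have h1 : (2 : ℤ) ^ (n - c 0) ≤ 2 ^ (n - lb) :=
      pow_le_pow_right₀ (by norm_num) (by have := hlb 0; omega)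
    have h2 : (1 : ℤ) ≤ 2 ^ (n - (c 0 + 1)) := one_le_pow₀ (by norm_num)
    constructor <;> linarith [ih.1, ih.2]

lemma chainRank_face (n : ℕ) : ∀ (k : ℕ) (c : Fin (k + 1) → ℕ) (i : Fin (k + 1)), StrictMono c →
    (∀ j, c j < n) →
    0 < (-1 : ℤ) ^ (i : ℕ) * (chainRank n k (c ∘ i.succAbove) - chainRank n (k + 1) c) := by
  intro k
  induction k with
  | zero =>
    intro c i _ hn
    obtain rfl : i = 0 := Fin.eq_zero i
    simp only [chainRank, Fin.val_zero, pow_zero, one_mul, zero_sub, sub_zero, neg_neg]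
    have : (2 : ℤ) ^ 1 ≤ 2 ^ (n - c 0) :=
      pow_le_pow_right₀ (by norm_num) (by have := hn 0; omega)
    linarith
  | succ k ih =>
    intro c i hc hn
    have ht : StrictMono (Fin.tail c) := fun i j h => hc (Fin.succ_lt_succ_iff.mpr h)
    cases i using Fin.cases with
    | zero =>
      have hb := chainRank_bounds n (k + 1) (Fin.tail c) ht (fun i => hn _) (c 0 + 1) (hn 0)
        fun i => hc (Fin.succ_pos i)
      have e : (2 : ℤ) ^ (n - c 0) = 2 * 2 ^ (n - (c 0 + 1)) := by
        rw [← pow_succ']; congr 1; have := hn 0; omega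
      rw [show c ∘ (0 : Fin (k + 2)).succAbove = Fin.tail c by
        funext j; simp [Fin.tail]]
      simp only [Fin.val_zero, pow_zero, one_mul]
      conv_rhs => rw [show chainRank n (k + 1 + 1) c =
        -(2 ^ (n - c 0) - 1) - chainRank n (k + 1) (Fin.tail c) from rfl]
      linarith [hb.1, hb.2]
    | succ j =>
      have h := ih (Fin.tail c) j ht fun i => hn _
      have h0 : (c ∘ (j.succ).succAbove) 0 = c 0 := by simp
      have h1 : Fin.tail (c ∘ (j.succ).succAbove) = Fin.tail c ∘ j.succAbove := by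
        funext q; simp [Fin.tail]
      rw [show chainRank n (k + 1) (c ∘ (j.succ).succAbove) =
          -(2 ^ (n - c 0) - 1) - chainRank n k (Fin.tail c ∘ j.succAbove) by
            rw [← h1]; simp only [chainRank]; rw [h0],
        show chainRank n (k + 1 + 1) c =
          -(2 ^ (n - c 0) - 1) - chainRank n (k + 1) (Fin.tail c) from rfl,
        Fin.val_succ, pow_succ]
      linarith [h]

lemma el_apply_nonneg {k : ℕ} (c : Fin (k + 1) → P) (b : Chain P k) : 0 ≤ el c b :=
  el_nonneg c b

/-- A strictly monotone height makes the chains strongly loop-free. -/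
lemma chains_stronglyLoopFree {n : ℕ} (e : P → ℕ) (he : StrictMono e) (hn : ∀ x, e x < n) :
    (chains P).StronglyLoopFree := by
  refine ⟨fun b => chainRank n (b.1 + 1) (e ∘ b.2.1), fun k a b => ?_⟩
  have key : ∀ s : Bool, (chains P).InBdry s a b → ∃ i : Fin (k + 2), b.1 = a.1 ∘ i.succAbove ∧
      if s then (-1 : ℤ) ^ (i : ℕ) = 1 else (-1 : ℤ) ^ (i : ℕ) = -1 := by
    intro s hs
    have hd : (chains P).d k ((chains P).gen a) =
        ∑ i : Fin (k + 2), (-1 : ℤ) ^ (i : ℕ) • el (a.1 ∘ i.succAbove) := by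
      rw [chains_gen, chains_d_el a.2.monotone]
    unfold InBdry at hs
    rw [hd] at hs
    have hterm : ∀ i : Fin (k + 2), ((-1 : ℤ) ^ (i : ℕ) • el (a.1 ∘ i.succAbove)) b ≠ 0 →
        b.1 = a.1 ∘ i.succAbove := by
      intro i hi
      by_contra hne
      apply hi
      rw [el_of_strictMono (a.2.comp (Fin.strictMono_succAbove i))]
      simp [Finsupp.single_eq_of_ne (show b ≠ ⟨_, a.2.comp (Fin.strictMono_succAbove i)⟩ from
        fun h => hne (congrArg Subtype.val h))]
    cases s
    · simp only [Bool.false_eq_true, if_false, Finsupp.finset_sum_apply] at hs ⊢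
      obtain ⟨i, -, hi⟩ := Finset.exists_lt_of_sum_lt
        (g := fun _ : Fin (k + 2) => (0 : ℤ)) (by simpa using hs)
      refine ⟨i, hterm i hi.ne, ?_⟩
      rcases neg_one_pow_eq_or ℤ (i : ℕ) with h | h
      · simp only [Finsupp.smul_apply, smul_eq_mul, h, one_mul] at hi
        exact absurd hi (not_lt.mpr (el_apply_nonneg _ _))
      · exact h
    · simp only [if_true, Finsupp.finset_sum_apply] at hs ⊢
      obtain ⟨i, -, hi⟩ := Finset.exists_lt_of_sum_lt
        (f := fun _ : Fin (k + 2) => (0 : ℤ)) (by simpa using hs)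
      refine ⟨i, hterm i hi.ne', ?_⟩
      rcases neg_one_pow_eq_or ℤ (i : ℕ) with h | h
      · exact h
      · simp only [Finsupp.smul_apply, smul_eq_mul, h] at hi
        have := el_apply_nonneg (a.1 ∘ i.succAbove) b
        linarith
  have rank : ∀ i : Fin (k + 2), b.1 = a.1 ∘ i.succAbove → 0 < (-1 : ℤ) ^ (i : ℕ) *
      (chainRank n (k + 1) (e ∘ b.1) - chainRank n (k + 2) (e ∘ a.1)) := fun i hb => by
    rw [hb]
    exact chainRank_face n (k + 1) (e ∘ a.1) i (he.comp a.2) fun j => hn _
  constructor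
  · intro h
    obtain ⟨i, hb, hi⟩ := key false h
    have := rank i hb
    simp only [Bool.false_eq_true, if_false] at hi
    rw [hi] at this
    simp only [neg_mul, one_mul, Left.neg_pos_iff, sub_neg] at this
    exact this
  · intro h
    obtain ⟨i, hb, hi⟩ := key true h
    have := rank i hb
    simp only [if_true] at hi
    rw [hi, one_mul, sub_pos] at this
    exact this

lemma chains_finite [Finite P] : Finite (Σ k, (chains P).B k) := by
  have := Fintype.ofFinite P
  refine Finite.of_injective (β := Σ k : Fin (Fintype.card P), (Fin (k.1 + 1) → P))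
    (fun x => ⟨⟨x.1, ?_⟩, x.2.1⟩) ?_
  · have := Fintype.card_le_of_injective _ x.2.2.injective
    simpa using this
  · rintro ⟨k, c⟩ ⟨l, c'⟩ h
    simp only [Sigma.mk.injEq, Fin.mk.injEq] at h
    obtain ⟨rfl, h⟩ := h
    simp [Subtype.ext (eq_of_heq h)]

/-! ### The atom of the top simplex, by coning -/

/-- Append the last point to a chain in `Fin (n + 1)`. -/
def coneChain {n k : ℕ} (c : Chain (Fin (n + 1)) k) : Chain (Fin (n + 2)) (k + 1) :=
  ⟨Fin.snoc (Fin.castSucc ∘ c.1) (Fin.last _), by
    intro i j hij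
    cases j using Fin.lastCases with
    | last =>
      cases i using Fin.lastCases with
      | last => exact absurd hij (lt_irrefl _)
      | cast i =>
        rw [Fin.snoc_castSucc, Fin.snoc_last]
        exact Fin.castSucc_lt_last _
    | cast j =>
      cases i using Fin.lastCases with
      | last => exact absurd hij (not_lt.mpr (Fin.le_last _))
      | cast i =>
        rw [Fin.snoc_castSucc, Fin.snoc_castSucc]
        exact Fin.castSucc_lt_castSucc_iff.mpr (c.2 (Fin.castSucc_lt_castSucc_iff.mp hij))⟩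

/-- A chain in `Fin (n + 1)` as one in `Fin (n + 2)`. -/
def upChain {n k : ℕ} (c : Chain (Fin (n + 1)) k) : Chain (Fin (n + 2)) k :=
  ⟨Fin.castSucc ∘ c.1, fun _ _ h => Fin.castSucc_lt_castSucc_iff.mpr (c.2 h)⟩

/-- The last point. -/
def lastPt (n : ℕ) : Chain (Fin (n + 2)) 0 := ⟨fun _ => Fin.last _, strictMono_fin_one _⟩

lemma coneChain_injective {n k : ℕ} : Function.Injective (coneChain (n := n) (k := k)) :=
  fun a b h => Subtype.ext (funext fun i => by
    simpa [coneChain] using congrFun (congrArg Subtype.val h) i.castSucc)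

lemma upChain_ne_cone {n k : ℕ} (a : Chain (Fin (n + 1)) (k + 1)) (b : Chain (Fin (n + 1)) k) :
    upChain a ≠ coneChain b := fun h => by
  have := congrFun (congrArg Subtype.val h) (Fin.last _)
  simp [upChain, coneChain] at this

lemma upChain_ne_lastPt {n : ℕ} (a : Chain (Fin (n + 1)) 0) : upChain a ≠ lastPt n := fun h => by
  have := congrFun (congrArg Subtype.val h) 0
  simp [upChain, lastPt] at this

/-- The cone, linearly. -/
def coneL (n k : ℕ) :
    (Chain (Fin (n + 1)) k →₀ ℤ) →ₗ[ℤ] (Chain (Fin (n + 2)) (k + 1) →₀ ℤ) :=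
  Finsupp.lmapDomain ℤ ℤ coneChain

/-- The inclusion, linearly. -/
def upL (n k : ℕ) :
    (Chain (Fin (n + 1)) k →₀ ℤ) →ₗ[ℤ] (Chain (Fin (n + 2)) k →₀ ℤ) :=
  Finsupp.lmapDomain ℤ ℤ upChain

lemma coneL_el {n k : ℕ} {c : Fin (k + 1) → Fin (n + 1)} (hc : StrictMono c) :
    coneL n k (el c) = el (Fin.snoc (Fin.castSucc ∘ c) (Fin.last _)) := by
  rw [el_of_strictMono hc]
  change _ = el (coneChain ⟨c, hc⟩).1
  rw [el_val]
  exact Finsupp.mapDomain_single

lemma upL_el {n k : ℕ} {c : Fin (k + 1) → Fin (n + 1)} (hc : StrictMono c) :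
    upL n k (el c) = el (Fin.castSucc ∘ c) := by
  rw [el_of_strictMono hc]
  change _ = el (upChain ⟨c, hc⟩).1
  rw [el_val]
  exact Finsupp.mapDomain_single

lemma upL_d {n k : ℕ} (y : Chain (Fin (n + 1)) (k + 1) →₀ ℤ) :
    (chains (Fin (n + 2))).d k (upL n (k + 1) y) = upL n k ((chains (Fin (n + 1))).d k y) := by
  refine LinearMap.congr_fun (?_ : ((chains (Fin (n + 2))).d k).comp (upL n (k + 1)) =
    (upL n k).comp ((chains (Fin (n + 1))).d k)) y
  refine lhom_ext_gen fun c => ?_
  rw [LinearMap.comp_apply, LinearMap.comp_apply, ← el_val c, upL_el c.2,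
    chains_d_el (Fin.strictMono_castSucc.monotone.comp c.2.monotone), chains_d_el c.2.monotone,
    map_sum]
  refine Finset.sum_congr rfl fun i _ => ?_
  rw [map_zsmul, upL_el (c.2.comp (Fin.strictMono_succAbove i))]
  rfl

lemma coneL_d_zero {n : ℕ} (y : Chain (Fin (n + 1)) 0 →₀ ℤ) :
    (chains (Fin (n + 2))).d 0 (coneL n 0 y) =
      (chains (Fin (n + 1))).ε y • Finsupp.single (lastPt n) 1 - upL n 0 y := by
  have e : ((chains (Fin (n + 2))).d 0).comp (coneL n 0) =
      LinearMap.smulRight ((chains (Fin (n + 1))).ε) (Finsupp.single (lastPt n) (1 : ℤ))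
        - upL n 0 := by
    refine lhom_ext_gen fun c => ?_
    rw [LinearMap.comp_apply, LinearMap.sub_apply, LinearMap.smulRight_apply]
    rw [← el_val c, chains_ε_el, coneL_el c.2, upL_el c.2,
      chains_d_el (c := Fin.snoc (Fin.castSucc ∘ c.1) (Fin.last _)) (coneChain c).2.monotone, Fin.sum_univ_two, one_smul, ← el_val (lastPt n)]
    simp only [Fin.val_zero, pow_zero, Fin.val_one, pow_one, neg_smul, one_smul]
    rw [sub_eq_add_neg]
    congr 2
    · congr 1
      funext q
      obtain rfl : q = 0 := Fin.eq_zero q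
      simp [lastPt, Fin.snoc]
  exact LinearMap.congr_fun e y

lemma coneL_d {n k : ℕ} (y : Chain (Fin (n + 1)) (k + 1) →₀ ℤ) :
    (chains (Fin (n + 2))).d (k + 1) (coneL n (k + 1) y) =
      coneL n k ((chains (Fin (n + 1))).d k y) + (-1 : ℤ) ^ k • upL n (k + 1) y := by
  refine LinearMap.congr_fun (?_ : ((chains (Fin (n + 2))).d (k + 1)).comp (coneL n (k + 1)) =
    (coneL n k).comp ((chains (Fin (n + 1))).d k) + (-1 : ℤ) ^ k • upL n (k + 1)) y
  refine lhom_ext_gen fun c => ?_
  rw [LinearMap.comp_apply, LinearMap.add_apply, LinearMap.comp_apply, LinearMap.smul_apply]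
  rw [← el_val c, coneL_el c.2, upL_el c.2, chains_d_el (c := Fin.snoc (Fin.castSucc ∘ c.1) (Fin.last _)) (coneChain c).2.monotone,
    chains_d_el c.2.monotone, map_sum, Fin.sum_univ_castSucc]
  congr 1
  · refine Finset.sum_congr rfl fun i _ => ?_
    rw [map_zsmul, coneL_el (c.2.comp (Fin.strictMono_succAbove i)), Fin.val_castSucc]
    congr 2
    funext q
    cases q using Fin.lastCases with
    | last =>
      rw [Function.comp_apply, Fin.snoc_last,
        Fin.succAbove_of_le_castSucc _ _ (Fin.castSucc_le_castSucc_iff.mpr (Fin.le_last i)),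
        Fin.succ_last, Fin.snoc_last]
    | cast q => simp [Fin.castSucc_succAbove_castSucc]
  · have hs : ((-1 : ℤ)) ^ (k + 1 + 1) = (-1) ^ k := by simp [pow_succ]
    rw [Fin.val_last]
    simp only [hs]
    congr 2
    funext q
    simp [Fin.succAbove_last]

/-- Whether side `e` in dimension `l` of the top atom of `Fin (n + 2)` contains the old one. -/
abbrev keeps (l : ℕ) (e : Bool) : Prop := e = true ↔ Odd l

/-- The levels of the top atom. -/
def simplexAtomX : ∀ n l, Bool → (Chain (Fin (n + 1)) l →₀ ℤ)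
  | 0, 0, _ => el fun _ => 0
  | 0, _ + 1, _ => 0
  | n + 1, 0, e => if e then Finsupp.single (lastPt n) 1 else upL n 0 (simplexAtomX n 0 false)
  | n + 1, l + 1, e => coneL n l (simplexAtomX n l e) +
      if keeps (l + 1) e then upL n (l + 1) (simplexAtomX n (l + 1) e) else 0

lemma simplexAtomX_nonneg : ∀ n l e, 0 ≤ simplexAtomX n l e
  | 0, 0, _ => el_nonneg _
  | 0, _ + 1, _ => le_rfl
  | n + 1, 0, e => by
    unfold simplexAtomX
    split_ifs
    · simp
    · exact mapDomain_nonneg' _ (simplexAtomX_nonneg n 0 false)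
  | n + 1, l + 1, e => by
    unfold simplexAtomX
    refine add_nonneg (mapDomain_nonneg' _ (simplexAtomX_nonneg n l e)) ?_
    split_ifs
    · exact mapDomain_nonneg' _ (simplexAtomX_nonneg n (l + 1) e)
    · exact le_rfl

lemma chains_ε_upL {n : ℕ} (y : Chain (Fin (n + 1)) 0 →₀ ℤ) :
    (chains (Fin (n + 2))).ε (upL n 0 y) = (chains (Fin (n + 1))).ε y := by
  refine LinearMap.congr_fun (?_ : (chains (Fin (n + 2))).ε.comp (upL n 0) =
    (chains (Fin (n + 1))).ε) y
  refine lhom_ext_gen fun c => ?_
  rw [LinearMap.comp_apply, ← el_val c, upL_el c.2, chains_ε_el, chains_ε_el]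

lemma simplexAtomX_aug : ∀ n e, (chains (Fin (n + 1))).ε (simplexAtomX n 0 e) = 1
  | 0, _ => chains_ε_el _
  | n + 1, e => by
    unfold simplexAtomX
    split_ifs
    · rw [← el_val, chains_ε_el]
    · rw [chains_ε_upL, simplexAtomX_aug n false]

lemma simplexAtomX_above : ∀ n l e, n < l → simplexAtomX n l e = 0
  | 0, l + 1, _, _ => rfl
  | n + 1, l + 1, e, h => by
    unfold simplexAtomX
    rw [simplexAtomX_above n l e (by omega), simplexAtomX_above n (l + 1) e (by omega)]
    simp

lemma simplexAtomX_bdry : ∀ n l e, (chains (Fin (n + 1))).d l (simplexAtomX n (l + 1) e) =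
    simplexAtomX n l true - simplexAtomX n l false
  | 0, 0, e => by simp [simplexAtomX]
  | 0, l + 1, e => by simp [simplexAtomX]
  | n + 1, 0, e => by
    conv_lhs => unfold simplexAtomX
    rw [map_add, coneL_d_zero, simplexAtomX_aug, one_smul,
      apply_ite ((chains (Fin (n + 2))).d 0), upL_d, simplexAtomX_bdry n 0 e, map_sub, map_zero]
    cases e <;> simp [simplexAtomX, keeps] <;> abel
  | n + 1, l + 1, e => by
    conv_lhs => unfold simplexAtomX
    rw [map_add, coneL_d, simplexAtomX_bdry n l e, map_sub,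
      apply_ite ((chains (Fin (n + 2))).d (l + 1)), upL_d, simplexAtomX_bdry n (l + 1) e, map_sub,
      map_zero]
    rcases Nat.even_or_odd l with hl | hl
    · have h1 : Odd (l + 1) := hl.add_one
      have h2 : ¬ Odd (l + 1 + 1) := by simpa [Nat.odd_add_one] using h1
      cases e <;>
        simp [simplexAtomX, keeps, h1, h2, hl.neg_one_pow] <;> abel
    · have h1 : ¬ Odd (l + 1) := by simpa [Nat.odd_add_one] using hl
      have h2 : Odd (l + 1 + 1) := by simpa [Nat.odd_add_one] using h1
      cases e <;>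
        simp [simplexAtomX, keeps, h1, h2, hl.neg_one_pow] <;> abel

lemma simplexAtomX_top : ∀ n e,
    simplexAtomX n n e = Finsupp.single (⟨id, strictMono_id⟩ : Chain (Fin (n + 1)) n) 1
  | 0, e => by
    rw [simplexAtomX, el_of_strictMono (strictMono_fin_one _)]
    congr 1
    exact Subtype.ext (funext fun q => (Fin.eq_zero q).symm)
  | n + 1, e => by
    unfold simplexAtomX
    rw [simplexAtomX_top n e, simplexAtomX_above n (n + 1) e (by omega)]
    simp only [map_zero, ite_self, add_zero, coneL, Finsupp.lmapDomain_apply,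
      Finsupp.mapDomain_single]
    congr 1
    refine Subtype.ext (funext fun q => ?_)
    cases q using Fin.lastCases with
    | last => simp [coneChain]
    | cast q => simp [coneChain]

lemma simplexAtomX_min : ∀ n l, l < n → simplexAtomX n l true ⊓ simplexAtomX n l false = 0
  | n + 1, 0, _ => by
    ext b
    rw [Finsupp.inf_apply, Finsupp.zero_apply]
    simp only [simplexAtomX, if_true, Bool.false_eq_true, if_false]
    by_cases hb : b = lastPt n
    · subst hb
      rw [show upL n 0 (simplexAtomX n 0 false) (lastPt n) = 0 from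
        Finsupp.mapDomain_of_notMem_range _ _ fun ⟨a, ha⟩ => upChain_ne_lastPt a ha]
      simp
    · rw [Finsupp.single_eq_of_ne hb]
      exact inf_eq_left.mpr (mapDomain_nonneg' _ (simplexAtomX_nonneg n 0 false) b)
  | n + 1, l + 1, h => by
    ext b
    rw [Finsupp.inf_apply, Finsupp.zero_apply]
    simp only [simplexAtomX, Finsupp.add_apply]
    by_cases hb : b ∈ Set.range (coneChain (n := n) (k := l))
    · obtain ⟨c, rfl⟩ := hb
      have h0 : ∀ x, upL n (l + 1) x (coneChain c) = 0 := fun x =>
        Finsupp.mapDomain_of_notMem_range _ _ fun ⟨a, ha⟩ => upChain_ne_cone a c ha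
      have h1 : ∀ x, coneL n l x (coneChain c) = x c := fun x =>
        Finsupp.mapDomain_apply coneChain_injective x c
      have hmin := DFunLike.congr_fun (simplexAtomX_min n l (by omega)) c
      simp only [Finsupp.inf_apply, Finsupp.zero_apply] at hmin
      split_ifs <;> simp [h0, h1, hmin]
    · have h1 : ∀ x, coneL n l x b = 0 := fun x => Finsupp.mapDomain_of_notMem_range _ _ hb
      simp only [h1, zero_add]
      have hn : ∀ e, 0 ≤ upL n (l + 1) (simplexAtomX n (l + 1) e) b := fun e =>
        mapDomain_nonneg' _ (simplexAtomX_nonneg n (l + 1) e) b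
      by_cases ho : Odd (l + 1) <;> simp [keeps, ho, hn true, hn false]

/-- The atom of the top simplex of the oriental. -/
def simplexAtom (n : ℕ) : Table (chains (Fin (n + 1))) where
  x := simplexAtomX n
  nonneg := simplexAtomX_nonneg n
  aug := simplexAtomX_aug n
  bdry := simplexAtomX_bdry n
  exists_zero := ⟨n + 1, fun l e h => simplexAtomX_above n l e (by omega)⟩

lemma simplexAtom_isAtom (n : ℕ) :
    (chains (Fin (n + 1))).IsAtom (⟨id, strictMono_id⟩ : Chain (Fin (n + 1)) n) (simplexAtom n) :=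
  ⟨simplexAtomX_top n, fun l e h => simplexAtomX_above n l e h, fun l h => simplexAtomX_min n l h⟩

lemma chainsMap_eq_mapDomain (f : P →o Q) (hf : StrictMono f) (k : ℕ)
    (x : Chain P k →₀ ℤ) : (chainsMap f).f k x =
      Finsupp.mapDomain (fun c : Chain P k => (⟨f ∘ c.1, hf.comp c.2⟩ : Chain Q k)) x := by
  refine LinearMap.congr_fun (?_ : (chainsMap f).f k = Finsupp.lmapDomain ℤ ℤ
    (fun c : Chain P k => (⟨f ∘ c.1, hf.comp c.2⟩ : Chain Q k))) x
  refine lhom_ext_gen fun c => ?_
  rw [← el_val c, chainsMap_el f c.2.monotone, el_val c, Finsupp.lmapDomain_apply,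
    Finsupp.mapDomain_single, el_of_strictMono (hf.comp c.2)]

/-- The atom of a chain. -/
def chainAtom {k : ℕ} (a : Chain P k) : Table (chains P) :=
  Table.map (chainsMap ⟨a.1, a.2.monotone⟩) (simplexAtom k)

lemma chainAtom_isAtom {k : ℕ} (a : Chain P k) : (chains P).IsAtom a (chainAtom a) := by
  let f : Fin (k + 1) →o P := ⟨a.1, a.2.monotone⟩
  have hf : StrictMono f := a.2
  have hinj : ∀ l, Function.Injective
      (fun c : Chain (Fin (k + 1)) l => (⟨f ∘ c.1, hf.comp c.2⟩ : Chain P l)) := fun l c c' h =>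
    Subtype.ext (funext fun i => hf.injective (congrFun (congrArg Subtype.val h) i))
  refine ⟨fun s => ?_, fun l s h => ?_, fun l h => ?_⟩
  · change (chainsMap f).f k ((simplexAtom k).x k s) = _
    rw [(simplexAtom_isAtom k).top s, chainsMap_gen, chains_gen]
    rfl
  · change (chainsMap f).f l ((simplexAtom k).x l s) = _
    rw [(simplexAtom_isAtom k).above l s h, map_zero]
  · change (chainsMap f).f l _ ⊓ (chainsMap f).f l _ = 0
    rw [chainsMap_eq_mapDomain f hf, chainsMap_eq_mapDomain f hf, ← mapDomain_inf (hinj l),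
      (simplexAtom_isAtom k).min l h, Finsupp.mapDomain_zero]

/-- The chains of a finite partial order form a Steiner complex. -/
theorem chains_isSteiner [Finite P] : (chains P).IsSteiner := by
  classical
  have := Fintype.ofFinite P
  refine ⟨chains_finite, chains_stronglyLoopFree (n := Fintype.card P)
    (fun x => (Finset.univ.filter (· < x)).card) (fun x y hxy => ?_) (fun x => ?_),
    fun k a => ⟨chainAtom a, chainAtom_isAtom a⟩⟩
  · refine Finset.card_lt_card (Finset.ssubset_iff_subset_ne.mpr ⟨fun z hz => ?_, fun h => ?_⟩)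
    · simp only [Finset.mem_filter, Finset.mem_univ, true_and] at hz ⊢
      exact hz.trans hxy
    · have := h.symm ▸ (show x ∈ Finset.univ.filter (· < y) by simp [hxy])
      simp at this
  · exact Finset.card_lt_card
      (Finset.ssubset_iff_subset_ne.mpr ⟨Finset.filter_subset _ _, fun h => by
        have := h.symm ▸ Finset.mem_univ x
        simp at this⟩)

/-- Orientals are Steiner complexes. -/
theorem oriental_isSteiner (m : ℕ) : (oriental m).IsSteiner := chains_isSteiner

end

end Vale.Agent.P213.ADC
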