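import Mathlib.LinearAlgebra.Finsupp.LinearCombination
import Mathlib.Data.Finite.Prod
import Mathlib.Data.Fintype.Option
import Mathlib.Tactic.SplitIfs
import Vale.Agent.P213.Basic.Free

/-!
# The tensor product with the interval

`cyl K = K ⊗ I`: basis `b ⊗ e` (`CylB.ends e b`) and `b ⊗ I` (`CylB.mid b`), with
`d (b ⊗ I) = db ⊗ I + (-1) ^ k (b ⊗ 1 - b ⊗ 0)`.  It preserves strong loop-freeness and
unitality; the atom of `b ⊗ I` is `x_l^α = A_{l-1}^α ⊗ I + A_l^α ⊗ (par l α)` for the atom
`A` of `b`.
-/

open CategoryTheory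

namespace Vale.Agent.P213.ADC

noncomputable section

/-- The basis of `K ⊗ I`. -/
inductive CylB (B : ℕ → Type) : ℕ → Type
  | ends {k : ℕ} (e : Bool) (b : B k) : CylB B k
  | mid {k : ℕ} (b : B k) : CylB B (k + 1)

/-- `par l α` is `α` for even `l` and `!α` for odd `l`. -/
def par : ℕ → Bool → Bool
  | 0, a => a
  | l + 1, a => !par l a

lemma par_succ (l : ℕ) (a : Bool) : par (l + 1) a = !par l a := rfl

lemma par_not (l : ℕ) (a : Bool) : par l (!a) = !par l a := by
  induction l with
  | zero => rfl
  | succ l ih => rw [par_succ, par_succ, ih]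

variable (K L M : ADC)

/-- `x ⊗ e`. -/
def iEnd (k : ℕ) (e : Bool) : (K.B k →₀ ℤ) →ₗ[ℤ] (CylB K.B k →₀ ℤ) :=
  Finsupp.lmapDomain ℤ ℤ (CylB.ends e)

/-- `x ⊗ I`. -/
def iMid (k : ℕ) : (K.B k →₀ ℤ) →ₗ[ℤ] (CylB K.B (k + 1) →₀ ℤ) :=
  Finsupp.lmapDomain ℤ ℤ CylB.mid

lemma iEnd_single (k : ℕ) (e : Bool) (b : K.B k) (z : ℤ) :
    iEnd K k e (Finsupp.single b z) = Finsupp.single (CylB.ends e b) z :=
  Finsupp.mapDomain_single

lemma iMid_single (k : ℕ) (b : K.B k) (z : ℤ) :
    iMid K k (Finsupp.single b z) = Finsupp.single (CylB.mid b) z :=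
  Finsupp.mapDomain_single

/-- The boundary of `x ⊗ I`. -/
def dMid : ∀ k, (K.B k →₀ ℤ) →ₗ[ℤ] (CylB K.B k →₀ ℤ)
  | 0 => iEnd K 0 true - iEnd K 0 false
  | k + 1 => (iMid K k).comp (K.d k) +
      (iEnd K (k + 1) (par (k + 1) true) - iEnd K (k + 1) (par (k + 1) false))

/-- The boundary of a basis element of `K ⊗ I`. -/
def cylGen : ∀ k, CylB K.B (k + 1) → (CylB K.B k →₀ ℤ)
  | k, .ends e b => iEnd K k e (K.d k (Finsupp.single b 1))
  | k, .mid b => dMid K k (Finsupp.single b 1)

/-- The differential of `K ⊗ I`. -/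
def cylD (k : ℕ) : (CylB K.B (k + 1) →₀ ℤ) →ₗ[ℤ] (CylB K.B k →₀ ℤ) :=
  Finsupp.linearCombination ℤ (cylGen K k)

lemma cylD_iEnd (k : ℕ) (e : Bool) (x : K.B (k + 1) →₀ ℤ) :
    cylD K k (iEnd K (k + 1) e x) = iEnd K k e (K.d k x) := by
  induction x using Finsupp.induction_linear with
  | zero => simp
  | add x y hx hy => simp [hx, hy]
  | single b z =>
    rw [iEnd_single, cylD, Finsupp.linearCombination_single, cylGen, ← map_smul, ← map_smul,
      Finsupp.smul_single', mul_one]

lemma cylD_iMid (k : ℕ) (x : K.B k →₀ ℤ) : cylD K k (iMid K k x) = dMid K k x := by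
  induction x using Finsupp.induction_linear with
  | zero => simp
  | add x y hx hy => simp [hx, hy]
  | single b z =>
    rw [iMid_single, cylD, Finsupp.linearCombination_single, cylGen, ← map_smul,
      Finsupp.smul_single', mul_one]

/-- The augmentation of `K ⊗ I`. -/
def cylEps : (CylB K.B 0 →₀ ℤ) →ₗ[ℤ] ℤ :=
  Finsupp.linearCombination ℤ fun
    | .ends _ b => K.ε (Finsupp.single b 1)

lemma cylEps_iEnd (e : Bool) (x : K.B 0 →₀ ℤ) : cylEps K (iEnd K 0 e x) = K.ε x := by
  induction x using Finsupp.induction_linear with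
  | zero => simp
  | add x y hx hy => simp [hx, hy]
  | single b z =>
    rw [iEnd_single, cylEps, Finsupp.linearCombination_single, ← map_smul,
      Finsupp.smul_single', mul_one]

/-- `K ⊗ I`. -/
@[reducible]
def cyl : ADC where
  B := CylB K.B
  d := cylD K
  ε := cylEps K
  d_d k x := by
    induction x using Finsupp.induction_linear with
    | zero => simp
    | add x y hx hy => simp [hx, hy]
    | single z c =>
      cases z with
      | ends e b =>
        rw [← iEnd_single, cylD_iEnd, cylD_iEnd, K.d_d, map_zero]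
      | mid b =>
        rw [← iMid_single, cylD_iMid]
        cases k with
        | zero =>
          simp only [dMid, map_add, map_sub, LinearMap.add_apply, LinearMap.sub_apply,
            LinearMap.comp_apply, cylD_iEnd, cylD_iMid, par]
          simp
        | succ k =>
          simp only [dMid, map_add, map_sub, LinearMap.add_apply, LinearMap.sub_apply,
            LinearMap.comp_apply, cylD_iEnd, cylD_iMid, K.d_d, map_zero, par_succ]
          cases par k true <;> cases par k false <;> simp
  ε_d x := by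
    induction x using Finsupp.induction_linear with
    | zero => simp
    | add x y hx hy => simp [hx, hy]
    | single z c =>
      cases z with
      | ends e b => rw [← iEnd_single, cylD_iEnd, cylEps_iEnd, K.ε_d]
      | mid b => rw [← iMid_single, cylD_iMid]; simp [dMid, cylEps_iEnd]

variable {K L M}

lemma cyl_d_iEnd (k : ℕ) (e : Bool) (x : K.B (k + 1) →₀ ℤ) :
    (cyl K).d k (iEnd K (k + 1) e x) = iEnd K k e (K.d k x) :=
  cylD_iEnd K k e x

lemma cyl_d_iMid_zero (x : K.B 0 →₀ ℤ) :
    (cyl K).d 0 (iMid K 0 x) = iEnd K 0 true x - iEnd K 0 false x :=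
  cylD_iMid K 0 x

lemma cyl_d_iMid_succ (k : ℕ) (x : K.B (k + 1) →₀ ℤ) :
    (cyl K).d (k + 1) (iMid K (k + 1) x) = iMid K k (K.d k x) +
      (iEnd K (k + 1) (par (k + 1) true) x - iEnd K (k + 1) (par (k + 1) false) x) :=
  cylD_iMid K (k + 1) x

lemma par_sub (k : ℕ) (x : K.B k →₀ ℤ) :
    iEnd K k (par k true) x - iEnd K k (par k false) x =
      (-1 : ℤ) ^ k • (iEnd K k true x - iEnd K k false x) := by
  have h : ∀ l, (par l true = true ∧ par l false = false ∧ (-1 : ℤ) ^ l = 1) ∨
      (par l true = false ∧ par l false = true ∧ (-1 : ℤ) ^ l = -1) := fun l => by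
    induction l with
    | zero => exact Or.inl ⟨rfl, rfl, rfl⟩
    | succ l ih =>
      rcases ih with ⟨a, b, c⟩ | ⟨a, b, c⟩
      · exact Or.inr ⟨by simp [par_succ, a], by simp [par_succ, b], by simp [pow_succ, c]⟩
      · exact Or.inl ⟨by simp [par_succ, a], by simp [par_succ, b], by simp [pow_succ, c]⟩
  rcases h k with ⟨a, b, c⟩ | ⟨a, b, c⟩ <;> simp [a, b, c]

lemma ends_injective (k : ℕ) (e : Bool) :
    Function.Injective (CylB.ends e : K.B k → CylB K.B k) := fun a b h => by
  injection h

lemma mid_injective (k : ℕ) : Function.Injective (CylB.mid : K.B k → CylB K.B (k + 1)) :=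
  fun a b h => by injection h

lemma iEnd_ends (k : ℕ) (e e' : Bool) (x : K.B k →₀ ℤ) (b : K.B k) :
    iEnd K k e x (CylB.ends e' b) = if e = e' then x b else 0 := by
  split_ifs with h
  · subst h
    exact Finsupp.mapDomain_apply (ends_injective k e) x b
  · exact Finsupp.mapDomain_of_notMem_range _ _ fun ⟨c, hc⟩ => h (by cases hc; rfl)

lemma iEnd_mid (k : ℕ) (e : Bool) (x : K.B (k + 1) →₀ ℤ) (b : K.B k) :
    iEnd K (k + 1) e x (CylB.mid b) = 0 :=
  Finsupp.mapDomain_of_notMem_range _ _ fun ⟨c, hc⟩ => by cases hc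

lemma iMid_mid (k : ℕ) (x : K.B k →₀ ℤ) (b : K.B k) : iMid K k x (CylB.mid b) = x b :=
  Finsupp.mapDomain_apply (mid_injective k) x b

lemma iMid_ends (k : ℕ) (e : Bool) (x : K.B k →₀ ℤ) (b : K.B (k + 1)) :
    iMid K k x (CylB.ends e b) = 0 :=
  Finsupp.mapDomain_of_notMem_range _ _ fun ⟨c, hc⟩ => by cases hc

lemma iEnd_nonneg (k : ℕ) (e : Bool) {x : K.B k →₀ ℤ} (hx : 0 ≤ x) : 0 ≤ iEnd K k e x := by
  refine Finsupp.le_def.2 fun z => ?_
  cases z with
  | ends e' b => rw [iEnd_ends]; split_ifs; exacts [hx b, le_rfl]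
  | mid b => rw [iEnd_mid]; exact le_rfl

lemma iMid_nonneg (k : ℕ) {x : K.B k →₀ ℤ} (hx : 0 ≤ x) : 0 ≤ iMid K k x := by
  refine Finsupp.le_def.2 fun z => ?_
  cases z with
  | ends e' b => rw [iMid_ends]; exact le_rfl
  | mid b => rw [iMid_mid]; exact hx b

/-- The inclusion `x ↦ x ⊗ e`. -/
def cylEnd (e : Bool) (K : ADC) : K ⟶ cyl K where
  f k := iEnd K k e
  pos k x h := iEnd_nonneg k e h
  comm k x := (cylD_iEnd K k e x).symm
  aug x := cylEps_iEnd K e x

/-- The atom of `b ⊗ I`, for a table `a`. -/
def Table.cylMid (a : Table K) : Table (cyl K) where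
  x := fun
    | 0, s => iEnd K 0 s (a.x 0 s)
    | l + 1, s => iMid K l (a.x l s) + iEnd K (l + 1) (par (l + 1) s) (a.x (l + 1) s)
  nonneg k s := by
    cases k with
    | zero => exact iEnd_nonneg 0 _ (a.nonneg 0 s)
    | succ l => exact add_nonneg (iMid_nonneg l (a.nonneg l s)) (iEnd_nonneg _ _ (a.nonneg _ s))
  aug s := (cylEps_iEnd K _ _).trans (a.aug s)
  bdry k s := by
    change cylD K k _ = _
    cases k with
    | zero =>
      simp only [map_add, cylD_iMid, cylD_iEnd, dMid, a.bdry, map_sub, LinearMap.sub_apply]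
      cases s <;> simp [par]
    | succ k =>
      simp only [map_add, cylD_iMid, cylD_iEnd, dMid, a.bdry, map_sub, LinearMap.sub_apply,
        LinearMap.add_apply, LinearMap.comp_apply, par_succ, Bool.not_not]
      have hp : par k false = !par k true := par_not k true
      cases s <;> cases hpt : par k true <;> simp [hp, hpt] <;> abel
  exists_zero := by
    obtain ⟨N, hN⟩ := a.exists_zero
    refine ⟨N + 1, fun k s h => ?_⟩
    obtain ⟨l, rfl⟩ : ∃ l, k = l + 1 := ⟨k - 1, by omega⟩
    simp only [hN l s (by omega), hN (l + 1) s (by omega), map_zero, add_zero]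

lemma IsAtom.cylMid {k : ℕ} {b : K.B k} {a : Table K} (h : K.IsAtom b a) :
    (cyl K).IsAtom (k := k + 1) (CylB.mid b) a.cylMid where
  top s := by
    show iMid K k (a.x k s) + iEnd K (k + 1) (par (k + 1) s) (a.x (k + 1) s) =
      Finsupp.single (CylB.mid b) 1
    rw [h.top, h.above (k + 1) s (by omega), map_zero, add_zero, ADC.gen, iMid_single]
  above l s hl := by
    obtain ⟨l, rfl⟩ : ∃ m, l = m + 1 := ⟨l - 1, by omega⟩
    show iMid K l (a.x l s) + iEnd K (l + 1) (par (l + 1) s) (a.x (l + 1) s) = 0
    rw [h.above l s (by omega), h.above (l + 1) s (by omega), map_zero, map_zero, add_zero]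
  min l hl := by
    cases l with
    | zero =>
      refine Finsupp.ext fun z => ?_
      cases z with
      | ends e' c =>
        show iEnd K 0 true (a.x 0 true) (CylB.ends e' c) ⊓
          iEnd K 0 false (a.x 0 false) (CylB.ends e' c) = 0
        rw [iEnd_ends, iEnd_ends]
        have h1 : 0 ≤ a.x 0 true c := a.nonneg 0 true c
        have h2 : 0 ≤ a.x 0 false c := a.nonneg 0 false c
        cases e' <;> simp [h1, h2]
    | succ l =>
      refine Finsupp.ext fun (z : CylB K.B (l + 1)) => ?_
      show (iMid K l (a.x l true) + iEnd K (l + 1) (par (l + 1) true) (a.x (l + 1) true)) z ⊓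
        (iMid K l (a.x l false) + iEnd K (l + 1) (par (l + 1) false) (a.x (l + 1) false)) z = 0
      rw [Finsupp.add_apply, Finsupp.add_apply]
      cases z with
      | mid c =>
        rw [iMid_mid, iMid_mid, iEnd_mid, iEnd_mid, add_zero, add_zero]
        exact DFunLike.congr_fun (h.min l (by omega)) c
      | ends e' c =>
        rw [iMid_ends, iMid_ends, iEnd_ends, iEnd_ends, zero_add, zero_add,
          show par (l + 1) false = !par (l + 1) true from par_not (l + 1) true]
        have h1 : 0 ≤ a.x (l + 1) true c := a.nonneg _ true c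
        have h2 : 0 ≤ a.x (l + 1) false c := a.nonneg _ false c
        cases par (l + 1) true <;> cases e' <;> simp [h1, h2]

lemma IsAtom.cylEnd {k : ℕ} {b : K.B k} {a : Table K} (h : K.IsAtom b a) (e : Bool) :
    (cyl K).IsAtom (CylB.ends e b) (Table.map (ADC.cylEnd e K) a) where
  top s := by
    show iEnd K k e (a.x k s) = Finsupp.single (CylB.ends e b) 1
    rw [h.top, ADC.gen, iEnd_single]
  above l s hl := by
    show iEnd K l e (a.x l s) = 0
    rw [h.above l s hl, map_zero]
  min l hl := by
    refine Finsupp.ext fun z => ?_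
    show iEnd K l e (a.x l true) z ⊓ iEnd K l e (a.x l false) z = 0
    cases z with
    | ends e' c =>
      rw [iEnd_ends, iEnd_ends]
      split_ifs
      · exact DFunLike.congr_fun (h.min l hl) c
      · exact inf_idem (0 : ℤ)
    | mid c => rw [iEnd_mid, iEnd_mid]; exact inf_idem (0 : ℤ)

/-- The rank on `K ⊗ I`. -/
def cylRank (r : (Σ k, K.B k) → ℤ) : (Σ k, CylB K.B k) → ℤ
  | ⟨k, .ends e b⟩ => 3 * r ⟨k, b⟩ + if e = par k true then 1 else -1
  | ⟨_, .mid b⟩ => 3 * r ⟨_, b⟩

lemma cyl_loopFree (h : K.StronglyLoopFree) : (cyl K).StronglyLoopFree := by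
  obtain ⟨r, hr⟩ := h
  refine ⟨cylRank r, fun k z w => ?_⟩
  simp only [InBdry, if_true, Bool.false_eq_true, if_false]
  change (cylD K k (Finsupp.single z 1) w < 0 → _) ∧ (0 < cylD K k (Finsupp.single z 1) w → _)
  cases z with
  | ends e a =>
    rw [← iEnd_single, cylD_iEnd]
    cases w with
    | mid c => rw [iEnd_mid]; simp
    | ends e' c =>
      rw [iEnd_ends]
      split_ifs with he
      · have := hr k a c
        simp only [InBdry, if_true, Bool.false_eq_true, if_false, ADC.gen] at this
        constructor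
        · intro hlt
          have := this.1 hlt
          simp only [cylRank]
          split_ifs <;> omega
        · intro hlt
          have := this.2 hlt
          simp only [cylRank]
          split_ifs <;> omega
      · simp
  | mid a =>
    rw [← iMid_single, cylD_iMid]
    cases k with
    | zero =>
      cases w with
      | ends e' c =>
        simp only [dMid, LinearMap.sub_apply, Finsupp.sub_apply, iEnd_ends]
        by_cases hc : a = c
        · subst hc
          simp only [Finsupp.single_eq_same]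
          cases e' <;> simp [cylRank, par]
        · simp [Finsupp.single_eq_of_ne (Ne.symm hc)]
    | succ k =>
      simp only [dMid, LinearMap.add_apply, LinearMap.sub_apply, LinearMap.comp_apply,
        Finsupp.add_apply, Finsupp.sub_apply]
      cases w with
      | mid c =>
        rw [iMid_mid, iEnd_mid, iEnd_mid, sub_self, add_zero]
        have := hr k a c
        simp only [InBdry, if_true, Bool.false_eq_true, if_false, ADC.gen] at this
        constructor
        · intro hlt
          have := this.1 hlt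
          simp only [cylRank]
          omega
        · intro hlt
          have := this.2 hlt
          simp only [cylRank]
          omega
      | ends e' c =>
        rw [iMid_ends, iEnd_ends, iEnd_ends, zero_add,
          show par (k + 1) false = !par (k + 1) true from par_not (k + 1) true]
        by_cases hc : a = c
        · subst hc
          simp only [Finsupp.single_eq_same, cylRank]
          cases par (k + 1) true <;> cases e' <;> simp
        · simp [Finsupp.single_eq_of_ne (Ne.symm hc)]

lemma cyl_finite (h : Finite (Σ k, K.B k)) : Finite (Σ k, CylB K.B k) :=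
  have := h
  have : Finite (Option Bool) := inferInstance
  Finite.of_surjective
    (fun p : (Σ k, K.B k) × Option Bool => match p.2 with
      | some e => (⟨p.1.1, CylB.ends e p.1.2⟩ : Σ k, CylB K.B k)
      | none => ⟨p.1.1 + 1, CylB.mid p.1.2⟩)
    (by
      rintro ⟨k, z⟩
      cases z with
      | ends e b => exact ⟨(⟨_, b⟩, some e), rfl⟩
      | mid b => exact ⟨(⟨_, b⟩, none), rfl⟩)

/-- Tensoring with the interval preserves finite strongly loop-free unital bases. -/
theorem IsSteiner.cyl (h : K.IsSteiner) : (ADC.cyl K).IsSteiner where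
  finite := cyl_finite h.finite
  loopFree := cyl_loopFree h.loopFree
  unital k z := by
    cases z with
    | ends e b =>
      obtain ⟨a, ha⟩ := h.unital _ b
      exact ⟨_, ha.cylEnd e⟩
    | mid b =>
      obtain ⟨a, ha⟩ := h.unital _ b
      exact ⟨_, ha.cylMid⟩

/-- The action of `φ ⊗ I` on basis elements. -/
def cylMapGen (φ : K ⟶ L) : ∀ k, CylB K.B k → (CylB L.B k →₀ ℤ)
  | _, .ends e b => iEnd L _ e (φ.f _ (Finsupp.single b 1))
  | _, .mid b => iMid L _ (φ.f _ (Finsupp.single b 1))

/-- `φ ⊗ I` in degree `k`. -/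
def cylMapF (φ : K ⟶ L) (k : ℕ) : (CylB K.B k →₀ ℤ) →ₗ[ℤ] (CylB L.B k →₀ ℤ) :=
  Finsupp.linearCombination ℤ (cylMapGen φ k)

lemma cylMapF_iEnd (φ : K ⟶ L) (k : ℕ) (e : Bool) (x : K.B k →₀ ℤ) :
    cylMapF φ k (iEnd K k e x) = iEnd L k e (φ.f k x) := by
  induction x using Finsupp.induction_linear with
  | zero => simp
  | add x y hx hy => simp [hx, hy]
  | single b z =>
    rw [iEnd_single, cylMapF, Finsupp.linearCombination_single, cylMapGen, ← map_smul, ← map_smul,
      Finsupp.smul_single', mul_one]

lemma cylMapF_iMid (φ : K ⟶ L) (k : ℕ) (x : K.B k →₀ ℤ) :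
    cylMapF φ (k + 1) (iMid K k x) = iMid L k (φ.f k x) := by
  induction x using Finsupp.induction_linear with
  | zero => simp
  | add x y hx hy => simp [hx, hy]
  | single b z =>
    rw [iMid_single, cylMapF, Finsupp.linearCombination_single, cylMapGen, ← map_smul, ← map_smul,
      Finsupp.smul_single', mul_one]

/-- `φ ⊗ I`. -/
def cylMap (φ : K ⟶ L) : cyl K ⟶ cyl L where
  f := cylMapF φ
  pos k x hx := by
    change (0 : CylB L.B k →₀ ℤ) ≤ cylMapF φ k x
    rw [cylMapF, Finsupp.linearCombination_apply]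
    refine Finset.sum_nonneg fun z _ => smul_nonneg (hx z) ?_
    cases z with
    | ends e b => exact iEnd_nonneg _ _ (φ.pos _ _ (Finsupp.single_nonneg.2 zero_le_one))
    | mid b => exact iMid_nonneg _ (φ.pos _ _ (Finsupp.single_nonneg.2 zero_le_one))
  comm k x := by
    change cylMapF φ k (cylD K k x) = cylD L k (cylMapF φ (k + 1) x)
    induction x using Finsupp.induction_linear with
    | zero => simp
    | add x y hx hy => simp [hx, hy]
    | single z c =>
      cases z with
      | ends e b =>
        rw [← iEnd_single, cylD_iEnd, cylMapF_iEnd, cylMapF_iEnd, cylD_iEnd, φ.comm]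
      | mid b =>
        rw [← iMid_single, cylD_iMid, cylMapF_iMid, cylD_iMid]
        cases k with
        | zero => simp [dMid, cylMapF_iEnd]
        | succ k => simp [dMid, cylMapF_iEnd, cylMapF_iMid, φ.comm]
  aug x := by
    change cylEps L (cylMapF φ 0 x) = cylEps K x
    induction x using Finsupp.induction_linear with
    | zero => simp
    | add x y hx hy => simp [hx, hy]
    | single z c =>
      cases z with
      | ends e b => rw [← iEnd_single, cylMapF_iEnd, cylEps_iEnd, cylEps_iEnd, φ.aug]

/-- A morphism out of `K ⊗ I` is determined on the `x ⊗ e` and the `x ⊗ I`. -/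
lemma cyl_hom_ext {N : ADC} {u v : cyl K ⟶ N}
    (h₀ : ∀ k e x, u.f k (iEnd K k e x) = v.f k (iEnd K k e x))
    (h₁ : ∀ k x, u.f (k + 1) (iMid K k x) = v.f (k + 1) (iMid K k x)) : u = v := by
  refine Hom.ext (funext fun k => Finsupp.lhom_ext fun z c => ?_)
  cases z with
  | ends e b => rw [← iEnd_single]; exact h₀ _ e _
  | mid b => rw [← iMid_single]; exact h₁ _ _

/-- The functor `- ⊗ I`. -/
def cylFunctor : ADC ⥤ ADC where
  obj := cyl
  map := cylMap
  map_id K := cyl_hom_ext (fun k e x => cylMapF_iEnd (𝟙 K) k e x)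
    (fun k x => cylMapF_iMid (𝟙 K) k x)
  map_comp {K L N} φ ψ := cyl_hom_ext
    (fun k e x => by
      show cylMapF (φ ≫ ψ) k (iEnd K k e x) = cylMapF ψ k (cylMapF φ k (iEnd K k e x))
      rw [cylMapF_iEnd, cylMapF_iEnd, cylMapF_iEnd]
      rfl)
    (fun k x => by
      show cylMapF (φ ≫ ψ) (k + 1) (iMid K k x) = cylMapF ψ (k + 1) (cylMapF φ (k + 1) (iMid K k x))
      rw [cylMapF_iMid, cylMapF_iMid, cylMapF_iMid]
      rfl)

lemma cylEnd_naturality (e : Bool) (φ : K ⟶ L) : φ ≫ cylEnd e L = cylEnd e K ≫ cylMap φ :=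
  Hom.ext (funext fun k => LinearMap.ext fun x => (cylMapF_iEnd φ k e x).symm)

/-- The projection on basis elements. -/
def cylProjGen (K : ADC) : ∀ k, CylB K.B k → (K.B k →₀ ℤ)
  | _, .ends _ b => Finsupp.single b 1
  | _, .mid _ => 0

/-- The projection `K ⊗ I ⟶ K` in degree `k`. -/
def cylProjF (K : ADC) (k : ℕ) : (CylB K.B k →₀ ℤ) →ₗ[ℤ] (K.B k →₀ ℤ) :=
  Finsupp.linearCombination ℤ (cylProjGen K k)

lemma cylProjF_iEnd (k : ℕ) (e : Bool) (x : K.B k →₀ ℤ) : cylProjF K k (iEnd K k e x) = x := by
  induction x using Finsupp.induction_linear with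
  | zero => simp
  | add x y hx hy => simp [hx, hy]
  | single b z =>
    rw [iEnd_single, cylProjF, Finsupp.linearCombination_single, cylProjGen,
      Finsupp.smul_single', mul_one]

lemma cylProjF_iMid (k : ℕ) (x : K.B k →₀ ℤ) : cylProjF K (k + 1) (iMid K k x) = 0 := by
  induction x using Finsupp.induction_linear with
  | zero => simp
  | add x y hx hy => simp [hx, hy]
  | single b z =>
    rw [iMid_single, cylProjF, Finsupp.linearCombination_single, cylProjGen, smul_zero]

/-- The projection `K ⊗ I ⟶ K`. -/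
def cylProj (K : ADC) : cyl K ⟶ K where
  f := cylProjF K
  pos k x hx := by
    rw [cylProjF, Finsupp.linearCombination_apply]
    refine Finset.sum_nonneg fun z _ => smul_nonneg (hx z) ?_
    cases z with
    | ends e b => exact Finsupp.single_nonneg.2 zero_le_one
    | mid b => exact le_rfl
  comm k x := by
    change cylProjF K k (cylD K k x) = K.d k (cylProjF K (k + 1) x)
    induction x using Finsupp.induction_linear with
    | zero => simp
    | add x y hx hy => simp [hx, hy]
    | single z c =>
      cases z with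
      | ends e b => rw [← iEnd_single, cylD_iEnd, cylProjF_iEnd, cylProjF_iEnd]
      | mid b =>
        rw [← iMid_single, cylD_iMid, cylProjF_iMid, map_zero]
        cases k with
        | zero => simp [dMid, cylProjF_iEnd]
        | succ k => simp [dMid, cylProjF_iEnd, cylProjF_iMid]
  aug x := by
    change K.ε (cylProjF K 0 x) = cylEps K x
    induction x using Finsupp.induction_linear with
    | zero => simp
    | add x y hx hy => simp [hx, hy]
    | single z c =>
      cases z with
      | ends e b => rw [← iEnd_single, cylProjF_iEnd, cylEps_iEnd]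

lemma cylEnd_proj (e : Bool) : cylEnd e K ≫ cylProj K = 𝟙 K :=
  Hom.ext (funext fun k => LinearMap.ext fun x => cylProjF_iEnd k e x)

lemma cylProj_naturality (φ : K ⟶ L) : cylMap φ ≫ cylProj L = cylProj K ≫ φ :=
  cyl_hom_ext
    (fun k e x => by
      show cylProjF L k (cylMapF φ k (iEnd K k e x)) = φ.f k (cylProjF K k (iEnd K k e x))
      rw [cylMapF_iEnd, cylProjF_iEnd, cylProjF_iEnd])
    (fun k x => by
      show cylProjF L (k + 1) (cylMapF φ (k + 1) (iMid K k x)) =
        φ.f (k + 1) (cylProjF K (k + 1) (iMid K k x))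
      rw [cylMapF_iMid, cylProjF_iMid, cylProjF_iMid, map_zero])

end

end Vale.Agent.P213.ADC
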