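import Vale.Agent.P213.Cplx.Tools

/-!
# Globes; morphisms out of a globe are cells
-/

open CategoryTheory

namespace Vale.Agent.P213.ADC

noncomputable section

/-- The basis of the `k`-globe: two elements below dimension `k`, the single `true` in dimension
`k` (`true` is the target side). -/
abbrev GlobeB (k l : ℕ) := {s : Bool // l < k ∨ (l = k ∧ s = true)}

/-- The basis element of side `s` below the top. -/
abbrev GlobeB.side {k l : ℕ} (h : l < k) (s : Bool) : GlobeB k l := ⟨s, Or.inl h⟩

/-- The top basis element. -/
abbrev GlobeB.top (k : ℕ) : GlobeB k k := ⟨true, Or.inr ⟨rfl, rfl⟩⟩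

/-- The boundary in a globe. -/
def globeBdry (k l : ℕ) (b : GlobeB k (l + 1)) : GlobeB k l →₀ ℤ :=
  have h : l < k := by have := b.2; omega
  Finsupp.single (GlobeB.side h true) 1 - Finsupp.single (GlobeB.side h false) 1

/-- The `k`-globe `D_k`. -/
abbrev globe (k : ℕ) : ADC where
  B := GlobeB k
  d l := onGen (globeBdry k l)
  ε := onGen fun _ => 1
  d_d l x := by
    have e : (onGen (globeBdry k l)).comp (onGen (globeBdry k (l + 1))) = 0 := by
      refine lhom_ext_gen fun b => ?_
      simp [globeBdry]
    exact LinearMap.congr_fun e x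
  ε_d x := by
    have e : (onGen fun _ : GlobeB k 0 => (1 : ℤ)).comp (onGen (globeBdry k 0)) = 0 := by
      refine lhom_ext_gen fun b => ?_
      simp [globeBdry]
    exact LinearMap.congr_fun e x

variable {K L : ADC}

/-- Chain `(k, l, s) ↦` the basis element of the globe, extended by zero. -/
def globeGen (k l : ℕ) (s : Bool) : GlobeB k l →₀ ℤ :=
  if h : l < k then Finsupp.single (GlobeB.side h s) 1
  else if h' : l = k then Finsupp.single (h' ▸ GlobeB.top k) 1 else 0

/-- The top cell of `D_k`. -/
def globeCell (k : ℕ) : Table (globe k) where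
  x := globeGen k
  nonneg l s := by
    unfold globeGen
    split_ifs <;> simp
  aug s := by
    unfold globeGen
    split_ifs with h₁ h₂
    · exact onGen_single _ _
    · exact onGen_single _ _
    · omega
  bdry l s := by
    rcases Nat.lt_trichotomy (l + 1) k with h | h | h
    · simp [globeGen, globe, h, (by omega : l < k), globeBdry]
    · subst h
      simp [globeGen, globe, globeBdry]
    · simp only [globeGen, show ¬ l + 1 < k by omega, show l + 1 ≠ k by omega, dif_neg,
        not_false_eq_true, map_zero]
      by_cases hl : l = k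
      · subst hl; simp
      · simp [hl, show ¬ l < k by omega]
  exists_zero := ⟨k + 1, fun l s h => by
    simp [globeGen, show ¬ l < k by omega, show l ≠ k by omega]⟩

lemma globeCell_above (k l : ℕ) (s : Bool) (h : k < l) : (globeCell k).x l s = 0 := by
  simp [globeCell, globeGen, show ¬ l < k by omega, show l ≠ k by omega]

lemma globeCell_side {k l : ℕ} (b : GlobeB k l) :
    (globeCell k).x l b.1 = Finsupp.single b 1 := by
  obtain ⟨s, hs⟩ := b
  rcases hs with h | ⟨rfl, rfl⟩
  · simp [globeCell, globeGen, h, GlobeB.side]
  · simp [globeCell, globeGen, GlobeB.top]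

lemma Table.top_eq (c : Table K) {k : ℕ} (hc : ∀ l s, k < l → c.x l s = 0) :
    c.x k true = c.x k false := by
  have h := c.bdry k true
  rw [hc (k + 1) true (Nat.lt_succ_self k), map_zero] at h
  exact sub_eq_zero.mp h.symm

/-- The morphism classifying a cell of dimension at most `k`. -/
def globeHom (k : ℕ) (c : Table K) (hc : ∀ l s, k < l → c.x l s = 0) : globe k ⟶ K :=
  Hom.ofGen (fun l b => c.x l b.1) (fun l b => c.nonneg l b.1)
    (fun l b => by
      have h : l < k := by have := b.2; omega
      rw [c.bdry]
      simp [gen, globeBdry])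
    (fun b => by simp [gen, c.aug])

lemma globeHom_single (k : ℕ) (c : Table K) (hc : ∀ l s, k < l → c.x l s = 0) (l : ℕ)
    (b : GlobeB k l) : (globeHom k c hc).f l (Finsupp.single b 1) = c.x l b.1 := by
  unfold globeHom Hom.ofGen
  exact onGen_single (fun b : GlobeB k l => c.x l b.1) b

lemma globeHom_cell (k : ℕ) (c : Table K) (hc : ∀ l s, k < l → c.x l s = 0) :
    Table.map (globeHom k c hc) (globeCell k) = c := by
  refine Table.ext (funext fun l => funext fun s => ?_)
  simp only [Table.map, globeCell, globeGen]
  split_ifs with h₁ h₂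
  · rw [globeHom_single]
  · subst h₂
    rw [globeHom_single]
    cases s
    · exact c.top_eq hc
    · rfl
  · rw [map_zero, hc l s (by omega)]

lemma Table.map_above (φ : K ⟶ L) (c : Table K) {k : ℕ}
    (hc : ∀ l s, k < l → c.x l s = 0) : ∀ l s, k < l → (Table.map φ c).x l s = 0 := fun l s h => by
  simp [Table.map, hc l s h]

/-- Morphisms out of the `k`-globe are the cells of dimension at most `k`. -/
def globeHomEquiv (k : ℕ) (K : ADC) : (globe k ⟶ K) ≃ K.CellLE k where
  toFun φ := ⟨Table.map φ (globeCell k), Table.map_above φ _ (globeCell_above k)⟩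
  invFun c := globeHom k c.1 c.2
  left_inv φ := Hom.ext_gen fun l b => by
    refine (Hom.ofGen_gen _ _ _ _ l b).trans ?_
    simp [Table.map, globeCell_side, gen]
  right_inv c := Subtype.ext (globeHom_cell k c.1 c.2)

lemma globeHomEquiv_natural (k : ℕ) (φ : globe k ⟶ K) (ψ : K ⟶ L) :
    (globeHomEquiv k L (φ ≫ ψ)).1 = Table.map ψ (globeHomEquiv k K φ).1 := rfl

/-- Two morphisms out of a globe agreeing on the top cell are equal. -/
lemma globe_hom_ext {k : ℕ} {φ ψ : globe k ⟶ K}
    (h : Table.map φ (globeCell k) = Table.map ψ (globeCell k)) : φ = ψ :=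
  (globeHomEquiv k K).injective (Subtype.ext h)

/-- The inclusion of the `i`-dimensional source (`e = false`) or target face of a globe. -/
def globeFace (k i : ℕ) (e : Bool) : globe i ⟶ globe k :=
  globeHom i ((globeCell k).face i e) fun l s h => by
    simp [show ¬ l < i by omega, show l ≠ i by omega]

@[simp] lemma globeFace_cell (k i : ℕ) (e : Bool) :
    Table.map (globeFace k i e) (globeCell i) = (globeCell k).face i e :=
  globeHom_cell _ _ _

lemma globeFace_comp (k i : ℕ) (e : Bool) (φ : globe k ⟶ K) :
    Table.map (globeFace k i e ≫ φ) (globeCell i) = (Table.map φ (globeCell k)).face i e := by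
  change Table.map φ (Table.map (globeFace k i e) (globeCell i)) = _
  rw [globeFace_cell, Table.map_face]

end

end Vale.Agent.P213.ADC
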