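import Vale.Agent.P213.Cplx.Globe
import Mathlib.Tactic.Linarith
import Mathlib.Data.Finite.Prod

/-!
# Globes are Steiner complexes
-/

open CategoryTheory

namespace Vale.Agent.P213.ADC

noncomputable section

/-- The rank of a globe: sources ascending, targets descending. -/
def globeRank (k : ℕ) : (Σ l, GlobeB k l) → ℤ := fun b =>
  if b.1 = k then (k : ℤ) else if b.2.1 then 2 * (k : ℤ) - b.1 else b.1

lemma globe_stronglyLoopFree (k : ℕ) : (globe k).StronglyLoopFree := by
  refine ⟨globeRank k, fun l a b => ?_⟩
  have hl : l < k := by have := a.2; omega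
  have hd : (globe k).d l ((globe k).gen a) = Finsupp.single (GlobeB.side hl true) 1
      - Finsupp.single (GlobeB.side hl false) 1 := onGen_single _ _
  have hb : ∀ s : Bool, b ≠ GlobeB.side hl s → b.1 = !s := fun s h => by
    rcases b with ⟨c, hc⟩
    cases s <;> cases c <;> first | rfl | exact absurd (Subtype.ext rfl) h
  have hr : globeRank k ⟨l + 1, a⟩ ≥ (l : ℤ) + 1 ∧
      globeRank k ⟨l + 1, a⟩ ≤ 2 * (k : ℤ) - (l + 1) := by
    unfold globeRank
    split_ifs with h₁ h₂ <;> constructor <;> push_cast <;> omega
  have hside : globeRank k ⟨l, b⟩ = if b.1 then 2 * (k : ℤ) - l else l := by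
    simp [globeRank, hl.ne]
  constructor
  · intro h
    have hbf : b.1 = false := by
      unfold InBdry at h
      rw [hd] at h
      by_contra hne
      have : b = GlobeB.side hl true := Subtype.ext (by simpa using hne)
      subst this
      simp at h
    rw [hside, hbf]
    simp only [Bool.false_eq_true, if_false]
    linarith [hr.1]
  · intro h
    have hbt : b.1 = true := by
      unfold InBdry at h
      rw [hd] at h
      by_contra hne
      have : b = GlobeB.side hl false := Subtype.ext (by simpa using hne)
      subst this
      simp at h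
    rw [hside, hbt]
    simp only [if_true]
    linarith [hr.2]

lemma globe_finite (k : ℕ) : Finite (Σ l, (globe k).B l) := by
  exact Finite.of_injective (β := Fin (k + 1) × Bool)
    (fun x => (⟨x.1, by have := x.2.2; omega⟩, x.2.1))
    (by
      rintro ⟨l, b⟩ ⟨m, c⟩ h
      simp only [Prod.mk.injEq, Fin.mk.injEq] at h
      obtain ⟨rfl, h⟩ := h
      exact Sigma.ext rfl (heq_of_eq (Subtype.ext h)))

/-- Globes are Steiner complexes. -/
theorem globe_isSteiner (k : ℕ) : (globe k).IsSteiner := by
  refine ⟨globe_finite k, globe_stronglyLoopFree k, fun l b => ⟨(globeCell k).face l b.1, ?_⟩⟩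
  refine ⟨fun s => ?_, fun m s hm => ?_, fun m hm => ?_⟩
  · simp only [Table.face_x, lt_irrefl, if_false, if_true]
    exact globeCell_side b
  · simp [show ¬ m < l by omega, show m ≠ l by omega]
  · have hk : m < k := by have := b.2; omega
    simp only [Table.face_x, hm, if_true]
    ext c
    simp only [globeCell, globeGen, hk, dif_pos, Finsupp.inf_apply, Finsupp.zero_apply]
    by_cases hc : c = GlobeB.side hk true
    · subst hc; simp
    · rw [Finsupp.single_eq_of_ne hc]
      exact inf_eq_left.mpr (by simp [Finsupp.single_apply]; split_ifs <;> simp)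

end

end Vale.Agent.P213.ADC
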