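import Mathlib.LinearAlgebra.Finsupp.LinearCombination
import Vale.Agent.P213.Basic.Free

/-!
# Tools for complexes with a basis: maps given on the basis
-/

open CategoryTheory

namespace Vale.Agent.P213.ADC

noncomputable section

/-- A linear map out of a free module which is nonnegative on the basis is positive. -/
lemma pos_of_gen {α β : Type} (g : (α →₀ ℤ) →ₗ[ℤ] (β →₀ ℤ))
    (h : ∀ a, 0 ≤ g (Finsupp.single a 1)) (x : α →₀ ℤ) (hx : 0 ≤ x) : 0 ≤ g x := by
  rw [← Finsupp.sum_single x, Finsupp.sum, map_sum]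
  refine Finset.sum_nonneg fun a _ => ?_
  rw [show Finsupp.single a (x a) = x a • Finsupp.single a (1 : ℤ) by simp, map_zsmul]
  exact fun b => mul_nonneg (hx a) (h a b)

/-- Two linear maps out of a free module agreeing on the basis are equal. -/
lemma lhom_ext_gen {α : Type} {M : Type} [AddCommGroup M] [Module ℤ M]
    {f g : (α →₀ ℤ) →ₗ[ℤ] M} (h : ∀ a, f (Finsupp.single a 1) = g (Finsupp.single a 1)) :
    f = g :=
  Finsupp.lhom_ext' fun a => LinearMap.ext_ring (h a)

/-- The linear map with the given values on the basis. -/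
def onGen {α : Type} {M : Type} [AddCommGroup M] [Module ℤ M] (f : α → M) :
    (α →₀ ℤ) →ₗ[ℤ] M :=
  Finsupp.linearCombination ℤ f

@[simp] lemma onGen_single {α : Type} {M : Type} [AddCommGroup M] [Module ℤ M] (f : α → M)
    (a : α) : onGen f (Finsupp.single a 1) = f a :=
  (Finsupp.linearCombination_single ℤ 1 a).trans (‹Module ℤ M›.one_smul (f a))

variable {K L M : ADC}

@[simp] lemma id_f (K : ADC) (k : ℕ) (x : K.B k →₀ ℤ) : (Hom.f (𝟙 K) k) x = x := rfl

@[simp] lemma comp_f (φ : K ⟶ L) (ψ : L ⟶ M) (k : ℕ) (x : K.B k →₀ ℤ) :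
    Hom.f (φ ≫ ψ) k x = ψ.f k (φ.f k x) := rfl

/-- Morphisms agreeing on the basis are equal. -/
lemma Hom.ext_gen {φ ψ : K ⟶ L} (h : ∀ k b, φ.f k (K.gen b) = ψ.f k (K.gen b)) : φ = ψ :=
  Hom.ext (funext fun k => lhom_ext_gen (h k))

/-- A morphism from its values on the basis. -/
def Hom.ofGen (g : ∀ k, K.B k → (L.B k →₀ ℤ)) (pos : ∀ k b, 0 ≤ g k b)
    (comm : ∀ k b, onGen (g k) (K.d k (K.gen b)) = L.d k (g (k + 1) b))
    (aug : ∀ b, L.ε (g 0 b) = K.ε (K.gen b)) : K ⟶ L where
  f k := onGen (g k)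
  pos k := pos_of_gen _ fun a => by simpa using pos k a
  comm k x := by
    have e : (onGen (g k)).comp (K.d k) = (L.d k).comp (onGen (g (k + 1))) :=
      lhom_ext_gen fun a => by simpa [gen] using comm k a
    exact LinearMap.congr_fun e x
  aug x := by
    have e : L.ε.comp (onGen (g 0)) = K.ε := lhom_ext_gen fun a => by simpa [gen] using aug a
    exact LinearMap.congr_fun e x

@[simp] lemma Hom.ofGen_gen (g : ∀ k, K.B k → (L.B k →₀ ℤ)) (pos) (comm) (aug) (k : ℕ)
    (b : K.B k) : (Hom.ofGen g pos comm aug).f k (K.gen b) = g k b :=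
  onGen_single _ _

/-- The basis-to-basis map is compatible with the infimum when injective. -/
lemma mapDomain_inf {α β : Type} {f : α → β} (hf : Function.Injective f) (x y : α →₀ ℤ) :
    Finsupp.mapDomain f (x ⊓ y) = Finsupp.mapDomain f x ⊓ Finsupp.mapDomain f y := by
  ext b
  rw [Finsupp.inf_apply]
  by_cases hb : b ∈ Set.range f
  · obtain ⟨a, rfl⟩ := hb
    simp [Finsupp.mapDomain_apply hf]
  · simp [Finsupp.mapDomain_of_notMem_range _ _ hb]

lemma mapDomain_nonneg' {α β : Type} (f : α → β) {x : α →₀ ℤ} (hx : 0 ≤ x) :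
    0 ≤ Finsupp.mapDomain f x :=
  pos_of_gen (Finsupp.lmapDomain ℤ ℤ f) (fun a => by simp) x hx

end

end Vale.Agent.P213.ADC
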